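import Vale.Agent.H19.PolFun

/-!
The filtration of the group algebra by powers of the kernel of `K[G] → K[G/N]`,
and vanishing of idempotents in the kernel.
-/

namespace Vale.Agent.H19

open MonoidAlgebra

section Filt

variable {G : Type*} [Group G] {K : Type*} [CommRing K]

variable (K) in
/-- `W k` is the additive span of the products `y (n_1 - 1) ... (n_k - 1)`, `n_i ∈ N`. -/
noncomputable def W (N : Subgroup G) : ℕ → AddSubgroup (MonoidAlgebra K G)
  | 0 => ⊤
  | k + 1 => AddSubgroup.closure
      {z | ∃ y ∈ W N k, ∃ n ∈ N, z = y * (MonoidAlgebra.single n 1 - 1)}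

lemma pairing_eq_zero_of_mem (N : Subgroup G) : ∀ (k : ℕ) (f : G → K) (x : MonoidAlgebra K G),
    f ∈ Pol K N k → x ∈ W K N k → pairing f x = 0 := by
  intro k
  induction k with
  | zero =>
    intro f x hf _
    rw [mem_Pol_zero] at hf
    subst hf
    induction x using MonoidAlgebra.induction_linear with
    | zero => simp
    | add x y hx hy => rw [map_add, hx (by simp [W]), hy (by simp [W]), add_zero]
    | single g c => simp
  | succ k ih =>
    intro f x hf hx
    have hle : W K N (k + 1) ≤ (pairing f : MonoidAlgebra K G →+ K).ker := by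
      rw [W, AddSubgroup.closure_le]
      rintro z ⟨y, hy, n, hn, rfl⟩
      rw [SetLike.mem_coe, AddMonoidHom.mem_ker, pairing_mul_single_sub_one]
      exact ih _ _ (mem_Pol_succ.1 hf n hn) hy
    exact hle hx

variable (K) in
/-- The canonical ring homomorphism `K[G] → K[G/N]`. -/
noncomputable abbrev proj (N : Subgroup G) [N.Normal] : MonoidAlgebra K G →+* MonoidAlgebra K (G ⧸ N) :=
  MonoidAlgebra.mapDomainRingHom K (QuotientGroup.mk' N)

@[simp] lemma proj_single (N : Subgroup G) [N.Normal] (g : G) (c : K) :
    proj K N (MonoidAlgebra.single g c) = MonoidAlgebra.single (g : G ⧸ N) c := by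
  simp [proj]

/-- The set-theoretic section `K[G/N] → K[G]` obtained from `Quotient.out`. -/
noncomputable def sect (N : Subgroup G) [N.Normal] : MonoidAlgebra K (G ⧸ N) →+ MonoidAlgebra K G where
  toFun x := x.coeff.sum (fun q c => MonoidAlgebra.single q.out c)
  map_zero' := by simp
  map_add' x y := by
    classical
    rw [MonoidAlgebra.coeff_add, Finsupp.sum_add_index']
    · simp
    · intro a b c
      simp

@[simp] lemma sect_single (N : Subgroup G) [N.Normal] (q : G ⧸ N) (c : K) :
    sect N (MonoidAlgebra.single q c) = MonoidAlgebra.single q.out c := by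
  change (MonoidAlgebra.single q c).coeff.sum (fun q c => MonoidAlgebra.single q.out c) = _
  simp

/-- Elements of the kernel lie in `W 1`. -/
lemma sub_sect_mem (N : Subgroup G) [N.Normal] (x : MonoidAlgebra K G) :
    x - sect N (proj K N x) ∈ W K N 1 := by
  induction x using MonoidAlgebra.induction_linear with
  | zero => simp
  | add x y hx hy =>
    rw [map_add, map_add]
    have := (W K N 1).add_mem hx hy
    convert this using 1
    abel
  | single g c =>
    rw [proj_single, sect_single]
    apply AddSubgroup.subset_closure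
    refine ⟨MonoidAlgebra.single (g : G ⧸ N).out c, by simp [W], ((g : G ⧸ N).out)⁻¹ * g, ?_, ?_⟩
    · have h : ((((g : G ⧸ N).out : G)) : G ⧸ N) = (g : G ⧸ N) := Quotient.out_eq' _
      exact QuotientGroup.eq.1 h
    · rw [mul_sub, MonoidAlgebra.single_mul_single, mul_one, mul_one]
      congr 2
      group

lemma mem_W_one_of_proj_eq_zero (N : Subgroup G) [N.Normal] (x : MonoidAlgebra K G)
    (hx : proj K N x = 0) : x ∈ W K N 1 := by
  have := sub_sect_mem N x
  rwa [hx, map_zero, sub_zero] at this

lemma left_mul_mem_W (N : Subgroup G) : ∀ (k : ℕ) (a x : MonoidAlgebra K G),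
    x ∈ W K N k → a * x ∈ W K N k := by
  intro k
  induction k with
  | zero => intro a x _; simp [W]
  | succ k ih =>
    intro a x hx
    have hle : W K N (k + 1) ≤ (W K N (k + 1)).comap (AddMonoidHom.mulLeft a) := by
      conv_lhs => rw [W]
      rw [AddSubgroup.closure_le]
      rintro z ⟨y, hy, n, hn, rfl⟩
      rw [SetLike.mem_coe, AddSubgroup.mem_comap, AddMonoidHom.coe_mulLeft, ← mul_assoc]
      exact AddSubgroup.subset_closure ⟨a * y, ih a y hy, n, hn, rfl⟩
    exact hle hx

lemma right_single_mem_W (N : Subgroup G) [N.Normal] : ∀ (k : ℕ) (x : MonoidAlgebra K G) (g : G)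
    (c : K), x ∈ W K N k → x * MonoidAlgebra.single g c ∈ W K N k := by
  intro k
  induction k with
  | zero => intro x g c _; simp [W]
  | succ k ih =>
    intro x g c hx
    have hle : W K N (k + 1) ≤
        (W K N (k + 1)).comap (AddMonoidHom.mulRight (MonoidAlgebra.single g c)) := by
      conv_lhs => rw [W]
      rw [AddSubgroup.closure_le]
      rintro z ⟨y, hy, n, hn, rfl⟩
      rw [SetLike.mem_coe, AddSubgroup.mem_comap, AddMonoidHom.coe_mulRight]
      refine AddSubgroup.subset_closure ⟨y * MonoidAlgebra.single g c, ih y g c hy,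
        g⁻¹ * n * g, ?_, ?_⟩
      · have := Subgroup.Normal.conj_mem (inferInstance : N.Normal) n hn g⁻¹
        simpa using this
      · change y * (MonoidAlgebra.single n 1 - 1) * MonoidAlgebra.single g c = _
        have key : (MonoidAlgebra.single n 1 - 1) * MonoidAlgebra.single g c =
            MonoidAlgebra.single g c * (MonoidAlgebra.single (g⁻¹ * n * g) 1 - 1) := by
          rw [sub_mul, mul_sub, one_mul, mul_one,
            MonoidAlgebra.single_mul_single, MonoidAlgebra.single_mul_single]
          congr 2
          · group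
          · simp
        rw [mul_assoc, key, ← mul_assoc]
    exact hle hx

lemma right_mul_mem_W (N : Subgroup G) [N.Normal] (k : ℕ) (x a : MonoidAlgebra K G)
    (hx : x ∈ W K N k) : x * a ∈ W K N k := by
  induction a using MonoidAlgebra.induction_linear with
  | zero => rw [mul_zero]; exact (W K N k).zero_mem
  | add a b ha hb => rw [mul_add]; exact (W K N k).add_mem ha hb
  | single g c => exact right_single_mem_W N k x g c hx

lemma mul_mem_W_succ (N : Subgroup G) [N.Normal] (k : ℕ) (x y : MonoidAlgebra K G)
    (hx : x ∈ W K N k) (hy : proj K N y = 0) : x * y ∈ W K N (k + 1) := by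
  have hy' := mem_W_one_of_proj_eq_zero N y hy
  have hle : W K N 1 ≤ (W K N (k + 1)).comap (AddMonoidHom.mulLeft x) := by
    conv_lhs => rw [W]
    rw [AddSubgroup.closure_le]
    rintro z ⟨y, -, n, hn, rfl⟩
    rw [SetLike.mem_coe, AddSubgroup.mem_comap, AddMonoidHom.coe_mulLeft, ← mul_assoc]
    exact AddSubgroup.subset_closure ⟨x * y, right_mul_mem_W N k x y hx, n, hn, rfl⟩
  exact hle hy'

/-- A matrix idempotent over `K[G]` which dies in `K[G/N]` is zero if polynomial functions
relative to `N` separate points. -/
theorem idempotent_matrix_eq_zero (N : Subgroup G) [N.Normal] (hs : SepPol K N)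
    {ι : Type*} [Fintype ι] [DecidableEq ι] (e : Matrix ι ι (MonoidAlgebra K G)) (he : e * e = e)
    (h0 : e.map (proj K N) = 0) : e = 0 := by
  have hmem : ∀ k : ℕ, ∀ i j, e i j ∈ W K N k := by
    intro k
    induction k with
    | zero => intro i j; simp [W]
    | succ k ih =>
      intro i j
      rw [← he, Matrix.mul_apply]
      refine AddSubgroup.sum_mem _ (fun l _ => ?_)
      refine mul_mem_W_succ N k _ _ (ih i l) ?_
      have := congrFun (congrFun h0 l) j
      simpa using this
  ext1 i j
  refine hs.eq_zero (e i j) (fun f hf => ?_)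
  obtain ⟨k, hk⟩ := hf
  exact pairing_eq_zero_of_mem N k f _ hk (hmem k i j)

end Filt

end Vale.Agent.H19
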