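import Vale.Agent.H19.PolFun

/-!
Polynomial functions on a free group separate points (any coefficient ring).
-/

namespace Vale.Agent.H19

section Left

variable {G : Type*} [Group G] {K : Type*} [CommRing K]

lemma left_translate_mem_Pol (N : Subgroup G) : ∀ (k : ℕ) (f : G → K) (u : G), f ∈ Pol K N k →
    (fun g => f (u * g)) ∈ Pol K N k := by
  intro k
  induction k with
  | zero =>
    intro f u hf
    rw [mem_Pol_zero] at hf ⊢
    subst hf
    rfl
  | succ k ih =>
    intro f u hf
    rw [mem_Pol_succ] at hf ⊢
    intro n hn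
    have := ih _ u (hf n hn)
    convert this using 1
    funext g
    simp [mul_assoc]

end Left

section Free

variable {α : Type*} {K : Type*} [CommRing K]

/-- The permutation of `F × K` attached to a generator `y`. -/
def tau (δ : α → FreeGroup α → K) (y : α) : Equiv.Perm (FreeGroup α × K) where
  toFun z := (FreeGroup.of y * z.1, z.2 + δ y z.1)
  invFun z := ((FreeGroup.of y)⁻¹ * z.1, z.2 - δ y ((FreeGroup.of y)⁻¹ * z.1))
  left_inv z := by simp
  right_inv z := by simp

/-- The integral of the data `δ`. -/
def Psi (δ : α → FreeGroup α → K) (g : FreeGroup α) : K :=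
  (FreeGroup.lift (tau δ) g (1, 0)).2

lemma lift_tau_fst (δ : α → FreeGroup α → K) (g : FreeGroup α) (z : FreeGroup α × K) :
    (FreeGroup.lift (tau δ) g z).1 = g * z.1 := by
  induction g using FreeGroup.induction_on generalizing z with
  | C1 => simp
  | of x => simp [tau]
  | inv_of x _ =>
    rw [map_inv, FreeGroup.lift_apply_of]
    rfl
  | mul x y hx hy => rw [map_mul, Equiv.Perm.mul_apply, hx, hy, mul_assoc]

@[simp] lemma Psi_one (δ : α → FreeGroup α → K) : Psi δ 1 = 0 := by simp [Psi]

lemma Psi_of_mul (δ : α → FreeGroup α → K) (y : α) (h : FreeGroup α) :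
    Psi δ (FreeGroup.of y * h) = Psi δ h + δ y h := by
  unfold Psi
  rw [map_mul, Equiv.Perm.mul_apply, FreeGroup.lift_apply_of]
  change (FreeGroup.lift (tau δ) h (1, 0)).2 + δ y (FreeGroup.lift (tau δ) h (1, 0)).1 = _
  rw [lift_tau_fst, mul_one]

lemma Psi_inv_mul (δ : α → FreeGroup α → K) (y : α) (h : FreeGroup α) :
    Psi δ ((FreeGroup.of y)⁻¹ * h) = Psi δ h - δ y ((FreeGroup.of y)⁻¹ * h) := by
  have := Psi_of_mul δ y ((FreeGroup.of y)⁻¹ * h)
  rw [mul_inv_cancel_left] at this
  rw [this]
  ring

lemma Psi_unique (δ : α → FreeGroup α → K) (Φ : FreeGroup α → K) (h1 : Φ 1 = 0)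
    (hm : ∀ y h, Φ (FreeGroup.of y * h) = Φ h + δ y h) : Φ = Psi δ := by
  have key : ∀ g h : FreeGroup α, Φ (g * h) - Psi δ (g * h) = Φ h - Psi δ h := by
    intro g
    induction g using FreeGroup.induction_on with
    | C1 => intro h; simp
    | of x => intro h; rw [hm, Psi_of_mul]; ring
    | inv_of x _ =>
      intro h
      have h2 := hm x ((FreeGroup.of x)⁻¹ * h)
      rw [mul_inv_cancel_left] at h2
      rw [Psi_inv_mul, h2]
      ring
    | mul x y hx hy => intro h; rw [mul_assoc, hx, hy]
  funext g
  have := key g 1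
  rw [mul_one, h1, Psi_one, sub_zero] at this
  exact sub_eq_zero.1 this

lemma rdiff_Psi (δ : α → FreeGroup α → K) (h : FreeGroup α) :
    rdiff h (Psi δ) = (fun _ => Psi δ h) + Psi (fun y => rdiff h (δ y)) := by
  have : (fun g => Psi δ (g * h) - Psi δ g - Psi δ h) = Psi (fun y => rdiff h (δ y)) := by
    apply Psi_unique
    · simp
    · intro y g
      rw [mul_assoc, Psi_of_mul, Psi_of_mul, rdiff_apply]
      ring
  rw [← this]
  funext g
  simp

lemma Psi_mem_Pol : ∀ (k : ℕ) (δ : α → FreeGroup α → K),
    (∀ y, δ y ∈ Pol K (⊤ : Subgroup (FreeGroup α)) k) →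
    Psi δ ∈ Pol K (⊤ : Subgroup (FreeGroup α)) (k + 1) := by
  intro k
  induction k with
  | zero =>
    intro δ hδ
    have h0 : δ = fun _ _ => 0 := by
      funext y
      exact mem_Pol_zero.1 (hδ y)
    have : Psi δ = fun _ => 0 := by
      symm
      apply Psi_unique
      · rfl
      · intro y h
        simp [h0]
    rw [this]
    exact Submodule.zero_mem _
  | succ k ih =>
    intro δ hδ
    rw [mem_Pol_succ]
    intro h _
    rw [rdiff_Psi]
    refine Submodule.add_mem _ ?_ ?_
    · exact Pol_mono _ (by omega) (const_mem_Pol _ _)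
    · exact ih _ (fun y => mem_Pol_succ.1 (hδ y) h (Subgroup.mem_top h))

open Classical in
/-- The data of the integral along edges with signed label `s`. -/
noncomputable def dl (s : α × Bool) (f : FreeGroup α → K) (y : α) (g : FreeGroup α) : K :=
  if y = s.1 then (if s.2 then f g else - f (FreeGroup.of s.1 * g)) else 0

lemma dl_mem_Pol (s : α × Bool) (f : FreeGroup α → K) (k : ℕ)
    (hf : f ∈ Pol K (⊤ : Subgroup (FreeGroup α)) k) (y : α) :
    dl s f y ∈ Pol K (⊤ : Subgroup (FreeGroup α)) k := by
  classical
  by_cases hy : y = s.1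
  · by_cases hs : s.2
    · have : dl s f y = f := by
        funext g
        simp [dl, hy, hs]
      rw [this]
      exact hf
    · have : dl s f y = -(fun g => f (FreeGroup.of s.1 * g)) := by
        funext g
        simp [dl, hy, hs]
      rw [this]
      exact Submodule.neg_mem _ (left_translate_mem_Pol _ k f _ hf)
  · have : dl s f y = 0 := by
      funext g
      simp [dl, hy]
    rw [this]
    exact Submodule.zero_mem _

variable (K) in
/-- Iterated integrals. -/
noncomputable def Phi : List (α × Bool) → FreeGroup α → K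
  | [] => fun _ => 1
  | s :: L => Psi (dl s (Phi L))

lemma Phi_mem_Pol (L : List (α × Bool)) :
    Phi K L ∈ Pol K (⊤ : Subgroup (FreeGroup α)) (L.length + 1) := by
  induction L with
  | nil => exact const_mem_Pol _ _
  | cons s L ih => exact Psi_mem_Pol _ _ (dl_mem_Pol s _ _ ih)

open Classical in
lemma Psi_dl_mul (s t : α × Bool) (f : FreeGroup α → K) (h : FreeGroup α) :
    Psi (dl s f) (FreeGroup.mk [t] * h) = Psi (dl s f) h +
      (if t = s then f h else 0) - (if t = (s.1, !s.2) then f (FreeGroup.mk [t] * h) else 0) := by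
  obtain ⟨x, b⟩ := s
  obtain ⟨y, c⟩ := t
  cases c
  · have e : (FreeGroup.mk [(y, false)] : FreeGroup α) = (FreeGroup.of y)⁻¹ := by
      rw [FreeGroup.of, FreeGroup.inv_mk]
      rfl
    rw [e, Psi_inv_mul]
    by_cases hy : y = x
    · subst hy
      cases b <;> simp [dl]
    · simp [dl, hy]
  · have e : (FreeGroup.mk [(y, true)] : FreeGroup α) = FreeGroup.of y := rfl
    rw [e, Psi_of_mul]
    by_cases hy : y = x
    · subst hy
      cases b <;> simp [dl, sub_eq_add_neg]
    · simp [dl, hy]

lemma Phi_eval (L : List (α × Bool)) (hL : FreeGroup.IsReduced L) :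
    Phi K L (FreeGroup.mk L) = 1 ∧
      ∀ M : List (α × Bool), M <:+ L → M ≠ L → Phi K L (FreeGroup.mk M) = 0 := by
  classical
  induction L with
  | nil =>
    refine ⟨rfl, ?_⟩
    intro M hM hne
    exact absurd (List.suffix_nil.1 hM) hne
  | cons s L ih =>
    have hL' : FreeGroup.IsReduced L := List.IsChain.tail hL
    obtain ⟨ih1, ih2⟩ := ih hL'
    have key : ∀ M : List (α × Bool), M <:+ L → Phi K (s :: L) (FreeGroup.mk M) = 0 := by
      intro M
      induction M with
      | nil =>
        intro _
        have : (FreeGroup.mk ([] : List (α × Bool)) : FreeGroup α) = 1 := rfl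
        rw [this, Phi, Psi_one]
      | cons t M ihM =>
        intro hM
        have hM' : M <:+ L := (List.suffix_cons t M).trans hM
        have hneM : M ≠ L := by
          rintro rfl
          have := hM.length_le
          simp at this
        have e : (FreeGroup.mk (t :: M) : FreeGroup α) = FreeGroup.mk [t] * FreeGroup.mk M := by
          rw [FreeGroup.mul_mk]
          rfl
        have h1 := ihM hM'
        rw [Phi] at h1 ⊢
        rw [e, Psi_dl_mul, h1, ih2 M hM' hneM, ← e]
        by_cases ht : t = (s.1, !s.2)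
        · have hne : (t :: M) ≠ L := by
            rintro rfl
            rw [FreeGroup.isReduced_cons_cons] at hL
            have := hL.1 (by rw [ht])
            rw [ht] at this
            simp at this
          rw [ih2 _ hM hne]
          simp
        · simp [ht]
    constructor
    · have e : (FreeGroup.mk (s :: L) : FreeGroup α) = FreeGroup.mk [s] * FreeGroup.mk L := by
        rw [FreeGroup.mul_mk]
        rfl
      have h1 := key L (List.suffix_refl L)
      rw [Phi] at h1 ⊢
      rw [e, Psi_dl_mul, h1, ih1]
      have hs : s ≠ (s.1, !s.2) := by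
        intro h
        have := congrArg Prod.snd h
        simp at this
      simp [hs]
    · intro M hM hne
      rcases List.suffix_cons_iff.1 hM with h | h
      · exact absurd h hne
      · exact key M h

/-- Polynomial functions separate `1` from any other element in a free group. -/
theorem free_separate (g : FreeGroup α) (hg : g ≠ 1) :
    ∃ f : FreeGroup α → K, IsPol (⊤ : Subgroup (FreeGroup α)) f ∧ f 1 = 1 ∧ f g = 0 := by
  classical
  obtain ⟨h1, h2⟩ := Phi_eval (K := K) g.toWord FreeGroup.isReduced_toWord
  have h3 := h2 [] (List.nil_suffix) (by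
    intro h
    exact hg (FreeGroup.toWord_eq_nil_iff.1 h.symm))
  rw [FreeGroup.mk_toWord] at h1
  have e : (FreeGroup.mk ([] : List (α × Bool)) : FreeGroup α) = 1 := rfl
  rw [e] at h3
  refine ⟨(fun _ => 1) + (-1 : K) • Phi K g.toWord, ?_, ?_, ?_⟩
  · exact (IsPol.const _ _).add (IsPol.smul _ ⟨_, Phi_mem_Pol _⟩)
  · simp [h3]
  · simp [h1]

end Free

end Vale.Agent.H19
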