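import Mathlib

/-!
Polynomial functions on a group relative to a subgroup, and the pairing with the group algebra.
-/

namespace Vale.Agent.H19

open MonoidAlgebra

section Pol

variable {G : Type*} [Group G] {K : Type*} [CommRing K]

/-- The right difference operator `f ↦ (g ↦ f (g h) - f g)`. -/
def rdiff (h : G) : (G → K) →ₗ[K] (G → K) where
  toFun f := fun g => f (g * h) - f g
  map_add' f f' := by
    funext g
    simp only [Pi.add_apply]
    ring
  map_smul' c f := by
    funext g
    simp only [Pi.smul_apply, smul_eq_mul, RingHom.id_apply]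
    ring

@[simp] lemma rdiff_apply (h : G) (f : G → K) (g : G) : rdiff h f g = f (g * h) - f g := rfl

variable (K) in
/-- Functions on `G` killed by `k`-fold right differences with respect to elements of `N`. -/
def Pol (N : Subgroup G) : ℕ → Submodule K (G → K)
  | 0 => ⊥
  | k + 1 => ⨅ n : N, (Pol N k).comap (rdiff (n : G))

lemma mem_Pol_succ {N : Subgroup G} {k : ℕ} {f : G → K} :
    f ∈ Pol K N (k + 1) ↔ ∀ n ∈ N, rdiff n f ∈ Pol K N k := by
  simp [Pol, Submodule.mem_iInf]

lemma mem_Pol_zero {N : Subgroup G} {f : G → K} : f ∈ Pol K N 0 ↔ f = 0 := by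
  simp [Pol]

lemma Pol_le_succ (N : Subgroup G) (k : ℕ) : Pol K N k ≤ Pol K N (k + 1) := by
  induction k with
  | zero =>
    intro f hf
    rw [mem_Pol_zero] at hf
    subst hf
    exact Submodule.zero_mem _
  | succ k ih =>
    intro f hf
    rw [mem_Pol_succ] at hf ⊢
    exact fun n hn => ih (hf n hn)

lemma Pol_mono (N : Subgroup G) : Monotone (Pol K N) := monotone_nat_of_le_succ (Pol_le_succ N)

lemma const_mem_Pol (N : Subgroup G) (c : K) : (fun _ => c) ∈ Pol K N 1 := by
  rw [mem_Pol_succ]
  intro n _
  rw [mem_Pol_zero]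
  funext g
  simp

lemma mul_mem_Pol_aux (N : Subgroup G) : ∀ m k l : ℕ, k + l ≤ m → ∀ f ∈ Pol K N k,
    ∀ f' ∈ Pol K N l, f * f' ∈ Pol K N (k + l - 1) := by
  intro m
  induction m with
  | zero =>
    intro k l hkl f hf f' hf'
    have hk : k = 0 := by omega
    subst hk
    rw [mem_Pol_zero] at hf
    subst hf
    simp
  | succ m ih =>
    intro k l hkl f hf f' hf'
    rcases k with _ | k
    · rw [mem_Pol_zero] at hf
      subst hf
      simp
    rcases l with _ | l
    · rw [mem_Pol_zero] at hf'
      subst hf'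
      simp
    have hkl' : k + 1 + (l + 1) - 1 = (k + l) + 1 := by omega
    rw [hkl', mem_Pol_succ]
    intro n hn
    have e : rdiff n (f * f') = rdiff n f * f' + f * rdiff n f' + rdiff n f * rdiff n f' := by
      funext g
      simp only [rdiff_apply, Pi.mul_apply, Pi.add_apply]
      ring
    have h1 := (mem_Pol_succ.1 hf) n hn
    have h2 := (mem_Pol_succ.1 hf') n hn
    rw [e]
    refine Submodule.add_mem _ (Submodule.add_mem _ ?_ ?_) ?_
    · have := ih k (l + 1) (by omega) _ h1 _ hf'
      exact Pol_mono N (by omega) this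
    · have := ih (k + 1) l (by omega) _ hf _ h2
      exact Pol_mono N (by omega) this
    · have := ih k l (by omega) _ h1 _ h2
      exact Pol_mono N (by omega) this

/-- A function is polynomial relative to `N` if it lies in some `Pol K N k`. -/
def IsPol (N : Subgroup G) (f : G → K) : Prop := ∃ k, f ∈ Pol K N k

lemma IsPol.mul {N : Subgroup G} {f f' : G → K} (hf : IsPol N f) (hf' : IsPol N f') :
    IsPol N (f * f') := by
  obtain ⟨k, hk⟩ := hf
  obtain ⟨l, hl⟩ := hf'
  exact ⟨k + l - 1, mul_mem_Pol_aux N (k + l) k l le_rfl f hk f' hl⟩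

lemma IsPol.add {N : Subgroup G} {f f' : G → K} (hf : IsPol N f) (hf' : IsPol N f') :
    IsPol N (f + f') := by
  obtain ⟨k, hk⟩ := hf
  obtain ⟨l, hl⟩ := hf'
  exact ⟨max k l, Submodule.add_mem _ (Pol_mono N (le_max_left _ _) hk)
    (Pol_mono N (le_max_right _ _) hl)⟩

lemma IsPol.smul {N : Subgroup G} {f : G → K} (c : K) (hf : IsPol N f) :
    IsPol N (c • f) := by
  obtain ⟨k, hk⟩ := hf
  exact ⟨k, Submodule.smul_mem _ _ hk⟩

lemma IsPol.const (N : Subgroup G) (c : K) : IsPol N (fun _ : G => c) := ⟨1, const_mem_Pol N c⟩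

/-- Polynomial functions relative to `N` separate the points of `G`. -/
def SepPol (K : Type*) [CommRing K] {G : Type*} [Group G] (N : Subgroup G) : Prop :=
  ∀ g h : G, g ≠ h → ∃ f : G → K, IsPol N f ∧ f g = 1 ∧ f h = 0

lemma SepPol.finset {N : Subgroup G} (hs : SepPol K N) (g : G) (s : Finset G) (hg : g ∉ s) :
    ∃ f : G → K, IsPol N f ∧ f g = 1 ∧ ∀ h ∈ s, f h = 0 := by
  classical
  induction s using Finset.induction_on with
  | empty => exact ⟨fun _ => 1, IsPol.const N 1, rfl, by simp⟩
  | insert a s ha ih =>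
    rw [Finset.mem_insert, not_or] at hg
    obtain ⟨f, hf, hf1, hf0⟩ := ih hg.2
    obtain ⟨f', hf', hf1', hf0'⟩ := hs g a hg.1
    refine ⟨f * f', hf.mul hf', by simp [hf1, hf1'], ?_⟩
    intro h hh
    rw [Finset.mem_insert] at hh
    rcases hh with rfl | hh
    · simp [hf0']
    · simp [hf0 h hh]

/-- Pairing of functions on `G` with the group algebra. -/
noncomputable def pairing (f : G → K) : MonoidAlgebra K G →+ K where
  toFun x := x.coeff.sum (fun g c => c * f g)
  map_zero' := by simp
  map_add' x y := by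
    classical
    rw [MonoidAlgebra.coeff_add, Finsupp.sum_add_index']
    · simp
    · intro a b c
      ring

lemma pairing_apply (f : G → K) (x : MonoidAlgebra K G) :
    pairing f x = x.coeff.sum (fun g c => c * f g) := rfl

@[simp] lemma pairing_single (f : G → K) (g : G) (c : K) :
    pairing f (MonoidAlgebra.single g c) = c * f g := by
  simp [pairing_apply]

lemma SepPol.eq_zero {N : Subgroup G} (hs : SepPol K N) (x : MonoidAlgebra K G)
    (hx : ∀ f : G → K, IsPol N f → pairing f x = 0) : x = 0 := by
  classical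
  ext g
  by_contra hg
  have hmem : g ∈ x.coeff.support := by
    rw [Finsupp.mem_support_iff]
    simpa using hg
  obtain ⟨f, hf, hf1, hf0⟩ := hs.finset g (x.coeff.support.erase g) (by simp)
  have h := hx f hf
  rw [pairing_apply, Finsupp.sum, Finset.sum_eq_single g] at h
  · rw [hf1, mul_one] at h
    exact hg (by simpa using h)
  · intro b hb hbg
    rw [hf0 b (Finset.mem_erase.2 ⟨hbg, hb⟩), mul_zero]
  · intro h'
    exact absurd hmem h'

/-- `a ↦ pairing f (a * (n - 1))`. -/
lemma pairing_mul_single_sub_one (f : G → K) (x : MonoidAlgebra K G) (n : G) :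
    pairing f (x * (MonoidAlgebra.single n 1 - 1)) = pairing (rdiff n f) x := by
  induction x using MonoidAlgebra.induction_linear with
  | zero => simp
  | add x y hx hy => rw [add_mul, map_add, map_add, hx, hy]
  | single g c =>
    rw [mul_sub, mul_one, MonoidAlgebra.single_mul_single, map_sub]
    simp only [pairing_single, rdiff_apply]
    ring

end Pol

end Vale.Agent.H19
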