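import Vale.Agent.H19.FreeSep
import Vale.Agent.H19.Filt

/-!
Separation of points for subgroups: free subgroups, and residually `p`-finite subgroups in
characteristic `p`.
-/

namespace Vale.Agent.H19

section Ext

variable {G : Type*} [Group G] {K : Type*} [CommRing K]

open Classical in
/-- Extend a function on `N` to the coset `g N`, by zero elsewhere. -/
noncomputable def extFun (N : Subgroup G) (g : G) (φ : N → K) : G → K := fun x =>
  if h : g⁻¹ * x ∈ N then φ ⟨g⁻¹ * x, h⟩ else 0

lemma rdiff_extFun (N : Subgroup G) (g : G) (φ : N → K) (m : N) :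
    rdiff (m : G) (extFun N g φ) = extFun N g (rdiff m φ) := by
  funext x
  simp only [rdiff_apply, extFun]
  by_cases h : g⁻¹ * x ∈ N
  · have h' : g⁻¹ * (x * m) ∈ N := by
      rw [← mul_assoc]
      exact N.mul_mem h m.2
    rw [dif_pos h, dif_pos h', dif_pos h]
    have e : (⟨g⁻¹ * (x * m), h'⟩ : N) = ⟨g⁻¹ * x, h⟩ * m := by
      ext
      simp [mul_assoc]
    rw [e]
  · have h' : g⁻¹ * (x * m) ∉ N := by
      rw [← mul_assoc, N.mul_mem_cancel_right m.2]
      exact h
    rw [dif_neg h, dif_neg h', dif_neg h, sub_zero]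

lemma extFun_mem_Pol (N : Subgroup G) (g : G) : ∀ (k : ℕ) (φ : N → K),
    φ ∈ Pol K (⊤ : Subgroup N) k → extFun N g φ ∈ Pol K N k := by
  intro k
  induction k with
  | zero =>
    intro φ hφ
    rw [mem_Pol_zero] at hφ ⊢
    subst hφ
    funext x
    simp [extFun]
  | succ k ih =>
    intro φ hφ
    rw [mem_Pol_succ]
    intro n hn
    have := rdiff_extFun N g φ ⟨n, hn⟩
    rw [this]
    exact ih _ (mem_Pol_succ.1 hφ _ (Subgroup.mem_top _))

/-- Separation at the level of `N` gives relative separation on `G`. -/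
theorem sepPol_of_sub (N : Subgroup G)
    (h : ∀ n : N, n ≠ 1 → ∃ φ : N → K, IsPol (⊤ : Subgroup N) φ ∧ φ 1 = 1 ∧ φ n = 0) :
    SepPol K N := by
  intro g g' hne
  by_cases hmem : g⁻¹ * g' ∈ N
  · have hne' : (⟨g⁻¹ * g', hmem⟩ : N) ≠ 1 := by
      intro h1
      have := congrArg Subtype.val h1
      simp only [Subgroup.coe_one] at this
      exact hne (inv_mul_eq_one.1 this)
    obtain ⟨φ, ⟨k, hk⟩, h1, h0⟩ := h _ hne'
    refine ⟨extFun N g φ, ⟨k, extFun_mem_Pol N g k φ hk⟩, ?_, ?_⟩
    · have : g⁻¹ * g ∈ N := by simp [N.one_mem]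
      simp only [extFun]
      rw [dif_pos this]
      convert h1 using 2
      ext
      simp
    · simp only [extFun]
      rw [dif_pos hmem, h0]
  · refine ⟨extFun N g (fun _ => 1), ⟨1, extFun_mem_Pol N g 1 _ (const_mem_Pol _ _)⟩, ?_, ?_⟩
    · have : g⁻¹ * g ∈ N := by simp [N.one_mem]
      simp only [extFun]
      rw [dif_pos this]
    · simp only [extFun]
      rw [dif_neg hmem]

end Ext

section Comap

variable {G H : Type*} [Group G] [Group H] {K : Type*} [CommRing K]

lemma comp_mem_Pol (φ : G →* H) : ∀ (k : ℕ) (f : H → K),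
    f ∈ Pol K (⊤ : Subgroup H) k → f ∘ φ ∈ Pol K (⊤ : Subgroup G) k := by
  intro k
  induction k with
  | zero =>
    intro f hf
    rw [mem_Pol_zero] at hf ⊢
    subst hf
    rfl
  | succ k ih =>
    intro f hf
    rw [mem_Pol_succ] at hf ⊢
    intro n _
    have := ih _ (hf (φ n) (Subgroup.mem_top _))
    convert this using 1
    funext g
    simp

/-- Free subgroups: separation. -/
theorem sepPol_of_isFreeGroup (N : Subgroup G) [IsFreeGroup N] : SepPol K N := by
  apply sepPol_of_sub
  intro n hn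
  let e : N ≃* FreeGroup (IsFreeGroup.Generators N) := IsFreeGroup.toFreeGroup N
  have hne : e n ≠ 1 := by
    intro h
    exact hn (e.map_eq_one_iff.1 h)
  obtain ⟨f, ⟨k, hk⟩, h1, h0⟩ := free_separate (K := K) (e n) hne
  exact ⟨f ∘ e.toMonoidHom, ⟨k, comp_mem_Pol e.toMonoidHom k f hk⟩, by simp [h1], by simp [h0]⟩

end Comap

section PGroup

variable {P : Type*} [Group P]

/-- Every `ZMod p`-valued function on a finite `p`-group is polynomial. -/
theorem pGroup_isPol (p : ℕ) [Fact p.Prime] [Finite P] (hP : IsPGroup p P) (φ : P → ZMod p) :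
    IsPol (⊤ : Subgroup P) φ := by
  classical
  -- right translation
  let ρ : P → ((P → ZMod p) →ₗ[ZMod p] (P → ZMod p)) := fun h => rdiff h + LinearMap.id
  have hρ : ∀ h f g, ρ h f g = f (g * h) := by
    intro h f g
    simp [ρ]
  have hfin : Finite (P → ZMod p) := inferInstance
  obtain ⟨k, hk⟩ := monotone_stabilizes_iff_noetherian.2
    (inferInstance : IsNoetherian (ZMod p) (P → ZMod p))
    ⟨Pol (ZMod p) (⊤ : Subgroup P), Pol_mono _⟩
  have hk' : Pol (ZMod p) (⊤ : Subgroup P) k = Pol (ZMod p) (⊤ : Subgroup P) (k + 1) :=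
    hk (k + 1) (by omega)
  set V := Pol (ZMod p) (⊤ : Subgroup P) k with hV
  have hstab : ∀ (h : P) (f : P → ZMod p), f ∈ V → ρ h f ∈ V := by
    intro h f hf
    have h1 : rdiff h f ∈ V := by
      have : f ∈ Pol (ZMod p) (⊤ : Subgroup P) (k + 1) := hk' ▸ hf
      exact mem_Pol_succ.1 this h (Subgroup.mem_top _)
    have : ρ h f = rdiff h f + f := rfl
    rw [this]
    exact V.add_mem h1 hf
  let act : P → ((P → ZMod p) ⧸ V) → ((P → ZMod p) ⧸ V) := fun h => V.mapQ V (ρ h) (hstab h)
  let _ : MulAction P ((P → ZMod p) ⧸ V) :=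
    { smul := act
      one_smul := by
        intro q
        obtain ⟨f, rfl⟩ := V.mkQ_surjective q
        change V.mapQ V (ρ 1) (hstab 1) (V.mkQ f) = _
        rw [Submodule.mkQ_apply, Submodule.mapQ_apply]
        congr 1
        funext g
        rw [hρ, mul_one]
      mul_smul := by
        intro a b q
        obtain ⟨f, rfl⟩ := V.mkQ_surjective q
        change V.mapQ V (ρ (a * b)) (hstab _) (V.mkQ f) =
          V.mapQ V (ρ a) (hstab a) (V.mapQ V (ρ b) (hstab b) (V.mkQ f))
        rw [Submodule.mkQ_apply, Submodule.mapQ_apply, Submodule.mapQ_apply, Submodule.mapQ_apply]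
        congr 1
        funext g
        rw [hρ, hρ, hρ, mul_assoc] }
  have hsmul : ∀ (h : P) (f : P → ZMod p), h • (V.mkQ f) = V.mkQ (ρ h f) := fun h f => rfl
  by_cases htop : V = ⊤
  · exact ⟨k, by rw [← hV, htop]; exact Submodule.mem_top⟩
  · exfalso
    have hnt : Nontrivial ((P → ZMod p) ⧸ V) := Submodule.Quotient.nontrivial_iff.2 htop
    have hfq : Finite ((P → ZMod p) ⧸ V) := Finite.of_surjective _ V.mkQ_surjective
    have hdvd : p ∣ Nat.card ((P → ZMod p) ⧸ V) := by
      have h1 := (Module.natCard_eq_pow_finrank (K := ZMod p) (V := ((P → ZMod p) ⧸ V)))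
      rw [h1, Nat.card_zmod]
      exact dvd_pow_self p (Module.finrank_pos (R := ZMod p) (M := ((P → ZMod p) ⧸ V))).ne'
    have hz : (0 : ((P → ZMod p) ⧸ V)) ∈ MulAction.fixedPoints P ((P → ZMod p) ⧸ V) := by
      intro g
      have := hsmul g 0
      simpa using this
    obtain ⟨b, hb, hb0⟩ := hP.exists_fixed_point_of_prime_dvd_card_of_fixed_point _ hdvd hz
    obtain ⟨f, rfl⟩ := V.mkQ_surjective b
    apply hb0
    symm
    rw [Submodule.mkQ_apply, Submodule.Quotient.mk_eq_zero]
    rw [hk', mem_Pol_succ]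
    intro n _
    have h1 := hb n
    rw [hsmul, ← sub_eq_zero, ← map_sub, Submodule.mkQ_apply, Submodule.Quotient.mk_eq_zero] at h1
    have h2 : ρ n f - f = rdiff n f := by
      simp [ρ]
    rwa [h2] at h1

/-- `N` is residually a finite `p`-group. -/
def ResiduallyPFinite (p : ℕ) (N : Type*) [Group N] : Prop :=
  ∀ n : N, n ≠ 1 → ∃ M : Subgroup N, M.Normal ∧ n ∉ M ∧ ∃ k : ℕ, M.index = p ^ k

lemma map_ringHom_mem_Pol {G : Type*} [Group G] {R K : Type*} [CommRing R] [CommRing K]
    (θ : R →+* K) (N : Subgroup G) : ∀ (k : ℕ) (f : G → R), f ∈ Pol R N k →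
    (fun g => θ (f g)) ∈ Pol K N k := by
  intro k
  induction k with
  | zero =>
    intro f hf
    rw [mem_Pol_zero] at hf ⊢
    subst hf
    funext g
    simp
  | succ k ih =>
    intro f hf
    rw [mem_Pol_succ] at hf ⊢
    intro n hn
    have := ih _ (hf n hn)
    convert this using 1
    funext g
    simp

theorem sepPol_of_residuallyPFinite {G : Type*} [Group G] {K : Type*} [CommRing K] (p : ℕ)
    [Fact p.Prime] [CharP K p] (N : Subgroup G) (hN : ResiduallyPFinite p N) : SepPol K N := by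
  classical
  apply sepPol_of_sub
  intro n hn
  obtain ⟨M, hM, hnM, k, hk⟩ := hN n hn
  have hcard : Nat.card (N ⧸ M) = p ^ k := hk
  have hfin : Finite (N ⧸ M) := by
    apply Nat.finite_of_card_ne_zero
    rw [hcard]
    exact pow_ne_zero _ (Fact.out (p := p.Prime)).ne_zero
  have hP : IsPGroup p (N ⧸ M) := IsPGroup.of_card hcard
  obtain ⟨l, hl⟩ := pGroup_isPol p hP (fun q => if q = 1 then (1 : ZMod p) else 0)
  refine ⟨fun x => (ZMod.castHom (dvd_refl p) K)
      (((fun q : N ⧸ M => if q = 1 then (1 : ZMod p) else 0) ∘ (QuotientGroup.mk' M)) x), ?_, ?_, ?_⟩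
  · exact ⟨l, map_ringHom_mem_Pol _ _ l _ (comp_mem_Pol (QuotientGroup.mk' M) l _ hl)⟩
  · simp
  · have : ((n : N ⧸ M)) ≠ 1 := by
      intro h
      exact hnM ((QuotientGroup.eq_one_iff n).1 h)
    simp [this]

end PGroup

end Vale.Agent.H19
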